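import Vale.Agent.P057.R2.H776.Main

namespace Vale.Agent.Results.P057.BehrendTower

/-- Sets without three-term arithmetic progressions: for every `ε > 0` and all large `N` there is one
in `{1, …, N}` with at least `N exp (-(1 + ε) 2 √(log 3 log N))` elements. -/
theorem result : ∀ ε : ℝ, 0 < ε → ∃ N₀ : ℕ, ∀ N : ℕ, N₀ ≤ N →
    ∃ A : Finset ℕ, A ⊆ Finset.Icc 1 N ∧
      (∀ a d : ℕ, 0 < d → ¬ (a ∈ A ∧ a + d ∈ A ∧ a + 2 * d ∈ A)) ∧
      (N : ℝ) * Real.exp (-((1 + ε) * 2 * Real.sqrt (Real.log 3 * Real.log N))) ≤ A.card := by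
  intro ε hε
  obtain ⟨D, hD, hfam⟩ := Vale.Agent.P057.R2.H776.blkFam
  have hD0 : (0 : ℝ) < D := by exact_mod_cast hD
  have hlog : 0 < Real.log 3 := Real.log_pos (by norm_num)
  obtain ⟨N₀, h⟩ := Vale.Agent.P057.H203.dens_of_fam D hD (D * (Real.log 3 / 2))
    (by positivity) hfam ε hε
  refine ⟨N₀, fun N hN => ?_⟩
  have h1 := h N hN
  have e : 2 * ((D : ℝ) * (Real.log 3 / 2) / (D : ℝ)) = Real.log 3 := by
    field_simp
  rw [e] at h1
  exact Vale.Agent.P057.H203.nat_form N _ h1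

end Vale.Agent.Results.P057.BehrendTower
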