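import Vale.Agent.P057.R3.H664.Virt
import Vale.Agent.P057.R3.H706.Glue2
import Vale.Agent.P057.R3.H380.RegRing
import Vale.Agent.P057.R3.H475.Sav

set_option autoImplicit false

/-!
P057, sets defined by base `b` digit statistics.

(I) A finite automaton reads the digits of `n` from the bottom, a second one reads them from the
top; the transitions carry outputs in the product of a virtually nilpotent group and a commutative
monoid, which are multiplied in the order of reading, and `n` is kept when the pair (states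
reached, products of the outputs) lies in an arbitrary set `S`.

(II) The digits are replaced by elements of a ring `R` and multiplied in the order of reading; the
products take finitely many values modulo a nilpotent two-sided ideal, and `n` is kept when the
product lies in an arbitrary subset of `R` (for instance block triangular matrices whose diagonal
blocks generate finite monoids).

(III) `f` is any `b`-regular sequence (Allouche and Shallit) with values in `ℤ ^ r` which grows at
most like a power of `log n`, and `n` is kept when `f n` lies in an arbitrary subset of `ℤ ^ r`.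

(IV) The digits are read from the bottom by a finite automaton with advice: the step used for the
digit number `i` is any member of a finite set of steps (it may depend on `i` and on the number of
digits of `n` in an arbitrary way), the outputs are added in a commutative monoid, and `n` is kept
when the last state and the total output lie in an arbitrary set, which may also depend on the
number of digits of `n`.

A subset `A'` of such a set `A` without a progression of length `k` has relative density at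
most `r_k(K) / K` in `A`, up to a power saving, for the counting measure and for the sums of
reciprocals, for every `K ≥ 2`.  In particular `A` itself has a power saving when it has no
progression of length `K`.
-/

namespace Vale.Agent.Results.P057.DigitStatistics

open Vale.Agent.P057.H380 Vale.Agent.P057.R3.H664 Vale.Agent.P057.H706
open Vale.Agent.P057.H475 (Adv adv_main)

open Classical in
/-- The conclusion of the theorem for a family `F` of sets of natural numbers and a length `K`:
with constants which serve all sets `A` of the family, the subsets of `A` without a progression of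
length `k` have relative density at most `r_k(K) / K` in `A` up to a power saving, for the counting
measure and for the sums of reciprocals; and if `A` has no progression of length `K` then it has a
power saving and a convergent sum of reciprocals. -/
def Relative (K : ℕ) (F : Set (Set ℕ)) : Prop :=
  ∃ θ C : ℝ, 0 < θ ∧ θ < 1 ∧ 0 < C ∧ ∀ A ∈ F,
    (∀ (k : ℕ) (A' : Set ℕ), A' ⊆ A → ¬ HasAP k A' →
      (∀ N : ℕ, 1 ≤ N → (K : ℝ) * ((A' ∩ Set.Icc 1 N).ncard : ℝ) ≤
        rk k K * ((A ∩ Set.Icc 1 N).ncard : ℝ) + C * (N : ℝ) ^ θ) ∧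
      (∀ N : ℕ, (K : ℝ) * ∑ n ∈ (Finset.Icc 1 N).filter (· ∈ A'), 1 / (n : ℝ) ≤
        rk k K * ∑ n ∈ (Finset.Icc 1 N).filter (· ∈ A), 1 / (n : ℝ) + C)) ∧
    (¬ HasAP K A →
      (∀ N : ℕ, 1 ≤ N → ((A ∩ Set.Icc 1 N).ncard : ℝ) ≤ C * (N : ℝ) ^ θ) ∧
      Summable (fun n : A => 1 / ((n : ℕ) : ℝ)))

/-- A set of natural numbers whose reciprocals have bounded partial sums. -/
theorem summable_of_bound {A : Set ℕ} {C : ℝ} [DecidablePred (· ∈ A)]
    (h2 : ∀ N : ℕ, ∑ n ∈ (Finset.Icc 1 N).filter (· ∈ A), 1 / (n : ℝ) ≤ C) :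
    Summable (fun n : A => 1 / ((n : ℕ) : ℝ)) := by
  classical
  refine (summable_subtype_iff_indicator (f := fun n : ℕ => 1 / (n : ℝ)) (s := A)).2 ?_
  refine summable_of_sum_range_le (c := C) (fun n => ?_) (fun N => ?_)
  · exact Set.indicator_nonneg (fun n _ => by positivity) n
  · refine le_trans ?_ (h2 N)
    rw [Finset.sum_filter]
    have h5 : ∀ n : ℕ, Set.indicator A (fun n : ℕ => 1 / (n : ℝ)) n =
        if n ∈ A then 1 / (n : ℝ) else 0 := fun n => by
      by_cases hn : n ∈ A
      · simp [hn]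
      · simp [hn]
    simp only [h5]
    rw [← Finset.sum_subset (s₁ := (Finset.range N).filter (0 < ·)) (s₂ := Finset.range N)
      (Finset.filter_subset _ _)]
    · refine Finset.sum_le_sum_of_subset_of_nonneg ?_ ?_
      · intro n hn
        obtain ⟨h6, h7⟩ := Finset.mem_filter.1 hn
        have h8 := Finset.mem_range.1 h6
        exact Finset.mem_Icc.2 ⟨h7, by omega⟩
      · intro n _ _
        split_ifs
        · positivity
        · exact le_rfl
    · intro n hn hn'
      have h6 : n = 0 := by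
        by_contra h7
        exact hn' (Finset.mem_filter.2 ⟨hn, Nat.pos_of_ne_zero h7⟩)
      subst h6
      simp

open Classical in
/-- The second half of the conclusion is the case `A' = A`, `k = K` of the first one. -/
theorem relative_of_ineq {K : ℕ} (hK : 2 ≤ K) {F : Set (Set ℕ)}
    (h : ∃ θ C : ℝ, 0 < θ ∧ θ < 1 ∧ 0 < C ∧ ∀ A : Set ℕ, A ∈ F →
      ∀ (k : ℕ) (A' : Set ℕ), A' ⊆ A → ¬ HasAP k A' →
        (∀ N : ℕ, 1 ≤ N → (K : ℝ) * ((A' ∩ Set.Icc 1 N).ncard : ℝ) ≤
          rk k K * ((A ∩ Set.Icc 1 N).ncard : ℝ) + C * (N : ℝ) ^ θ) ∧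
        (∀ N : ℕ, (K : ℝ) * ∑ n ∈ (Finset.Icc 1 N).filter (· ∈ A'), 1 / (n : ℝ) ≤
          rk k K * ∑ n ∈ (Finset.Icc 1 N).filter (· ∈ A), 1 / (n : ℝ) + C)) :
    Relative K F := by
  obtain ⟨θ, C, hθ0, hθ1, hC, h⟩ := h
  refine ⟨θ, C, hθ0, hθ1, hC, fun A hA => ⟨h A hA, fun hAP => ?_⟩⟩
  obtain ⟨h1, h2⟩ := h A hA K A subset_rfl hAP
  have hrk : ((rk K K : ℕ) : ℝ) + 1 ≤ (K : ℝ) := by
    exact_mod_cast rk_lt (by omega) le_rfl
  constructor
  · intro N hN
    have h3 := h1 N hN
    have h4 : (0 : ℝ) ≤ ((A ∩ Set.Icc 1 N).ncard : ℝ) := Nat.cast_nonneg _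
    nlinarith
  · refine summable_of_bound (C := C) fun N => ?_
    have h3 := h2 N
    have h4 : 0 ≤ ∑ n ∈ (Finset.Icc 1 N).filter (· ∈ A), 1 / (n : ℝ) :=
      Finset.sum_nonneg fun n _ => by positivity
    nlinarith

/-- The common part of (I), (II), (III): equivalent words in arithmetic progression. -/
theorem relative_of_words {b : ℕ} (hb : 2 ≤ b) {r : List ℕ → List ℕ → Prop} (hr : Cong r)
    {K : ℕ} (hK : 2 ≤ K)
    (hw : ∃ (w : ℕ → List ℕ) (D m : ℕ), 0 < D ∧ 0 < m ∧ ∀ j < K, Dig b (w j) ∧
      (w j).length = m ∧ (w j).getLast? = some 1 ∧ r (w 0) (w j) ∧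
      Nat.ofDigits b (w j) = Nat.ofDigits b (w 0) + j * D)
    {F : Set (Set ℕ)}
    (hF : ∀ A ∈ F, ∀ m n : ℕ, r (Nat.digits b m) (Nat.digits b n) → (m ∈ A ↔ n ∈ A)) :
    Relative K F := by
  obtain ⟨θ, C, hθ0, hθ1, hC, h⟩ := rel_abs hb hr hK hw
  exact relative_of_ineq hK ⟨θ, C, hθ0, hθ1, hC, fun A hA => h A (hF A hA)⟩

theorem ring_cong {R : Type} [Ring R] (x : ℕ → R) : Cong (fun u v => val x u = val x v) where
  eqv := ⟨fun _ => rfl, fun h => h.symm, fun h h' => h.trans h'⟩
  app := by
    intro u u' v v' h h'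
    rw [val_append, val_append, h, h']

theorem result (b : ℕ) (hb : 2 ≤ b) (K : ℕ) (hK : 2 ≤ K) :
    (∀ (Q G B Q' G' B' : Type) [Finite Q] [Finite Q'] [Group G] [CommMonoid B] [Group G']
      [CommMonoid B'], Group.IsVirtuallyNilpotent G → Group.IsVirtuallyNilpotent G' →
      ∀ (δ : Q → ℕ → Q × (G × B)) (δ' : Q' → ℕ → Q' × (G' × B')) (q : Q) (q' : Q'),
        Relative K {A | ∃ S : Set ((Q × (G × B)) × (Q' × (G' × B'))),
          A = nilSet b δ δ' q q' S}) ∧
    (∀ (R : Type) [Ring R] (I : Ideal R) [I.IsTwoSided] (x : ℕ → R),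
      (∃ d : ℕ, I ^ d = ⊥) →
      (∃ T : Set R, T.Finite ∧ ∀ w : List ℕ, (∀ d ∈ w, d < b) →
        ∃ t ∈ T, (w.map x).prod - t ∈ I) →
      Relative K {A | ∃ S : Set R, A = {n | ((Nat.digits b n).map x).prod ∈ S}}) ∧
    (∀ (r : ℕ) (f : ℕ → Fin r → ℤ), (Submodule.span ℤ (kernelSet b f)).FG →
      (∃ C c : ℕ, ∀ (n : ℕ) (i : Fin r), |f n i| ≤ C * ((Nat.log b n : ℤ) + 1) ^ c) →
      Relative K {A | ∃ S : Set (Fin r → ℤ), A = {n | f n ∈ S}}) ∧
    (∀ (Q B : Type) [Finite Q] [AddCommMonoid B] (𝒟 : Set (Q → ℕ → Q × B)), 𝒟.Finite →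
      Relative K {A | Adv b 𝒟 A}) := by
  refine ⟨?_, ?_, ?_, fun Q B _ _ 𝒟 h𝒟 => adv_main hb h𝒟 hK⟩
  · intro Q G B Q' G' B' _ _ _ _ _ _ hG hG' δ δ' q q'
    obtain ⟨w, D, m, hD, hm, -, hw⟩ := virt_words (k := K) hb hG hG' δ δ' (by omega)
    refine relative_of_words hb (nrel_cong δ δ') hK ⟨w, D, m, hD, hm, hw⟩ ?_
    rintro A ⟨S, rfl⟩ m n hmn
    exact nrel_nilSet q q' S m n hmn
  · rintro R _ I _ x ⟨d, hI⟩ hfin
    refine relative_of_words hb (ring_cong x) hK (ring_words I hI hb x hfin K) ?_
    rintro A ⟨S, rfl⟩ m n hmn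
    change val x _ ∈ S ↔ val x _ ∈ S
    rw [hmn]
  · rintro r f hf ⟨C, c, hg⟩
    obtain ⟨R, iR, I, iI, x, ⟨d, hI⟩, hfin, hx⟩ := reg_ring hb f hf C c hg
    refine relative_of_words hb (ring_cong x) hK (ring_words I hI hb x hfin K) ?_
    rintro A ⟨S, rfl⟩ m n hmn
    change f m ∈ S ↔ f n ∈ S
    rw [hx m n hmn]

end Vale.Agent.Results.P057.DigitStatistics
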