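import Vale.Agent.P057.R2.H133.Final

namespace Vale.Agent.Results.P057.FiveTerms

/-- A lower bound for the largest size of a subset of `{1, ..., N}` without five-term arithmetic
progressions. -/
theorem result : ∀ ε : ℝ, 0 < ε → ∃ N₀ : ℕ, ∀ N : ℕ, N₀ ≤ N →
    ∃ A : Finset ℕ, A ⊆ Finset.Icc 1 N ∧
      (∀ a d : ℕ, 0 < d → ¬ ∀ j < 5, a + j * d ∈ A) ∧
      (N : ℝ) * Real.exp (-((1 + ε) * 3 *
        (8 * Real.log 2 * Real.log (5 / 3) * Real.log N) ^ ((1 : ℝ) / 3))) ≤ A.card := by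
  intro ε hε
  have hc : Nat.clog 2 5 = 3 := by
    have h1 : Nat.clog 2 5 ≤ 3 := Nat.clog_le_of_le_pow (by norm_num)
    have h2 : 2 < Nat.clog 2 5 := (Nat.lt_clog_iff_pow_lt (by norm_num)).2 (by norm_num)
    omega
  have h := Vale.Agent.P057.R2.H133.lower_five 5 (le_refl 5) ε hε
  rw [hc] at h
  norm_num at h ⊢
  exact h

end Vale.Agent.Results.P057.FiveTerms
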