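import Vale.Agent.P057.R2.H279.Ser
import Vale.Agent.P057.R2.H279.Diff
import Vale.Agent.P057.R2.H502.RelFin

namespace Vale.Agent.Results.P057.LowComplexity

open Vale.Agent.P057.H279 Vale.Agent.P057

/-- **Arithmetic progressions in sets of low complexity and in their subsets.** The complexity of a
set `B` of integers is the VC-dimension of the family of its translates.

(1), (3) The conjecture of Erdos on sets with divergent sum of reciprocals, for every `k`, for all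
sets which contain at every large scale a sufficiently large part of slightly less than maximal
dimension; (2) in particular for all sets of finite dimension. (4), (5) A set `A` without `k`-term
progressions inside a set `B` of low complexity is at most about as dense in `B` as a set without
`k`-term progressions in an interval of any fixed length `K` can be; `m` is any upper bound for
`r_k(K)`. (6) A set which contains most of a set `B` of dimension at most `d` on an interval of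
length `N` and has no `k`-term progression with difference in `T - T`, where `T` is any set of
integers in `[0, N / k)`, forces `B` to have at most `36 k (log N / d) N |T| ^ (- 1 / d)` elements
there, and at most `36 k ^ 2 (log N / d) N ^ (1 - 1 / d)` if there is no `k`-term progression at
all. (7) The dimension of a finite set is at most `1 + log_2` of its size. -/
theorem result :
    (∀ (A : Set ℕ) (η : ℝ), 0 < η → η < 1 →
      (∃ N0 : ℕ, ∀ N : ℕ, N0 ≤ N → ∃ B : Set ℤ,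
        VCLe B ((1 - η) * Real.log N / Real.log (Real.log N)) ∧
        (∀ n : ℕ, 1 ≤ n → n ≤ 2 * N → (n : ℤ) ∈ B → n ∈ A) ∧
        ((A ∩ Set.Icc 1 N).ncard : ℝ) ≤ (Real.log N) ^ (η / 4) * (B ∩ Set.Icc 1 (N : ℤ)).ncard) →
      ¬ Summable (fun a : A => 1 / ((a : ℕ) : ℝ)) → ∀ k : ℕ, HasAPNat A k) ∧
    (∀ (A : Set ℕ) (d : ℕ), VCLe ((fun n : ℕ => (n : ℤ)) '' A) d →
      ¬ Summable (fun a : A => 1 / ((a : ℕ) : ℝ)) → ∀ k : ℕ, HasAPNat A k) ∧
    (∀ (A : Set ℕ) (D : ℕ → ℕ) (K : ℕ → ℝ) (j0 : ℕ), (∀ j, 0 ≤ K j) →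
      (∀ j : ℕ, j0 ≤ j → 1 ≤ D j ∧ 2 * D j ≤ j ∧ ∃ B : Set ℤ, VCLe B (D j) ∧
        (∀ n : ℕ, 1 ≤ n → n ≤ 2 ^ (j + 1) → (n : ℤ) ∈ B → n ∈ A) ∧
        ((A ∩ Set.Icc 1 (2 ^ j)).ncard : ℝ) ≤ K j * (B ∩ Set.Icc 1 (2 ^ j)).ncard) →
      Summable (fun j : ℕ => K j * (((j : ℝ) / D j) * (2 : ℝ) ^ (-((j : ℝ) / D j)))) →
      ¬ Summable (fun a : A => 1 / ((a : ℕ) : ℝ)) → ∀ k : ℕ, HasAPNat A k) ∧
    (∀ (A B : Set ℕ), A ⊆ B → ∀ (D : ℕ → ℕ) (j0 : ℕ),
      (∀ j : ℕ, j0 ≤ j → 1 ≤ D j ∧ 2 * D j ≤ j ∧ ∃ B' : Set ℤ, VCLe B' (D j) ∧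
        ∀ n : ℕ, 1 ≤ n → n ≤ 2 ^ (j + 1) → ((n : ℤ) ∈ B' ↔ n ∈ B)) →
      Summable (fun j : ℕ => ((j : ℝ) / D j) * (2 : ℝ) ^ (-((j : ℝ) / D j))) →
      ∀ k K m : ℕ, 1 ≤ K →
      (∀ S : Finset ℕ, S ⊆ Finset.Icc 1 K → m < S.card → HasAPNat (S : Set ℕ) k) →
      ¬ HasAPNat A k → ∃ C : ℝ, ∀ X : ℕ,
        (K : ℝ) * ∑ n ∈ Finset.Icc 1 X, A.indicator (fun n : ℕ => 1 / (n : ℝ)) n ≤
          3 * m * ∑ n ∈ Finset.Icc 1 (2 * X), B.indicator (fun n : ℕ => 1 / (n : ℝ)) n + C) ∧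
    (∀ k K N d m : ℕ, 1 ≤ K →
      (∀ S : Finset ℕ, S ⊆ Finset.Icc 1 K → m < S.card → HasAPNat (S : Set ℕ) k) →
      1 ≤ d → (d : ℝ) ≤ Real.log N → ∀ A B : Set ℤ, A ⊆ B → VCLe B d → ¬ HasAP A k → ∀ M : ℤ,
      (K : ℝ) * (A ∩ Set.Icc (M + 1) (M + N)).ncard ≤
        m * (B ∩ Set.Icc (M + 1 - (N / 2 : ℕ)) (M + N)).ncard +
          68 * (K : ℝ) ^ 3 * (Real.log N / d) * (N : ℝ) ^ (1 - 1 / (d : ℝ))) ∧
    (∀ k N d : ℕ, 2 ≤ k → 1 ≤ d → (d : ℝ) ≤ Real.log N → ∀ A B : Set ℤ, VCLe B d → ∀ M : ℤ,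
      2 * k * ((B \ A) ∩ Set.Icc (M + 1) (M + 2 * N)).ncard ≤
        (B ∩ Set.Icc (M + 1) (M + N)).ncard →
      (∀ T : Finset ℕ, (∀ t ∈ T, k * t < N) →
        (∀ t ∈ T, ∀ t' ∈ T, t < t' →
          ¬ ∃ a : ℤ, ∀ i : ℕ, i < k → a + i * ((t' : ℤ) - t) ∈ A) →
        ((B ∩ Set.Icc (M + 1) (M + N)).ncard : ℝ) * (T.card : ℝ) ^ (1 / (d : ℝ)) ≤
          36 * k * (Real.log N / d) * N) ∧
      (¬ HasAP A k → ((B ∩ Set.Icc (M + 1) (M + N)).ncard : ℝ) ≤
        36 * (k : ℝ) ^ 2 * (Real.log N / d) * (N : ℝ) ^ (1 - 1 / (d : ℝ)))) ∧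
    (∀ A : Finset ℤ, A.Nonempty → VCLe (A : Set ℤ) (1 + Real.log A.card / Real.log 2)) := by
  classical
  have hcard : ∀ (B : Set ℤ) (a b : ℤ),
      (B ∩ Set.Icc a b).ncard = ((Finset.Icc a b).filter (fun x => x ∈ B)).card := by
    intro B a b
    rw [← Set.ncard_coe_finset]
    congr 1
    ext x
    rw [Set.mem_inter_iff, Set.mem_Icc, Finset.mem_coe, Finset.mem_filter, Finset.mem_Icc]
    exact ⟨fun h => ⟨h.2, h.1⟩, fun h => ⟨h.2, h.1⟩⟩
  have hcardN : ∀ (A : Set ℕ) (a b : ℕ),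
      (A ∩ Set.Icc a b).ncard = ((Finset.Icc a b).filter (fun x => x ∈ A)).card := by
    intro B a b
    rw [← Set.ncard_coe_finset]
    congr 1
    ext x
    rw [Set.mem_inter_iff, Set.mem_Icc, Finset.mem_coe, Finset.mem_filter, Finset.mem_Icc]
    exact ⟨fun h => ⟨h.2, h.1⟩, fun h => ⟨h.2, h.1⟩⟩
  have hcard2 : ∀ (A B : Set ℤ) (a b : ℤ),
      ((B \ A) ∩ Set.Icc a b).ncard = ((Finset.Icc a b).filter (fun x => x ∈ B ∧ x ∉ A)).card := by
    intro A B a b
    rw [← Set.ncard_coe_finset]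
    congr 1
    ext x
    rw [Set.mem_inter_iff, Set.mem_Icc, Finset.mem_coe, Finset.mem_filter, Finset.mem_Icc]
    exact ⟨fun h => ⟨h.2, h.1⟩, fun h => ⟨h.2, h.1⟩⟩
  have hrec : ∀ A : Set ℕ, Summable (rec A) → Summable (fun a : A => 1 / ((a : ℕ) : ℝ)) := by
    intro A hA
    have h1 : rec A = A.indicator (fun n : ℕ => 1 / (n : ℝ)) := by
      funext n
      by_cases hn : n ∈ A
      · rw [Set.indicator_of_mem hn]; unfold rec; rw [if_pos hn]
      · rw [Set.indicator_of_notMem hn]; unfold rec; rw [if_neg hn]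
    rw [h1] at hA
    exact summable_subtype_iff_indicator.mpr hA
  have hall : ∀ A : Set ℕ, (∀ k : ℕ, 2 ≤ k → ¬ HasAPNat A k → Summable (rec A)) →
      ¬ Summable (fun a : A => 1 / ((a : ℕ) : ℝ)) → ∀ k : ℕ, HasAPNat A k := by
    intro A h hns k
    by_contra hk
    apply hns
    apply hrec
    apply h (k + 2) (by omega)
    rintro ⟨a, d, hd, hap⟩
    exact hk ⟨a, d, hd, fun i hi => hap i (by omega)⟩
  have hzero : ∀ (B : Set ℤ) (N : ℕ),
      ((Finset.Icc ((0 : ℤ) + 1) (0 + N)).filter (fun x => x ∈ B)).card =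
        (B ∩ Set.Icc 1 (N : ℤ)).ncard := by
    intro B N
    rw [← hcard, zero_add, zero_add]
  have hrk : ∀ k K m : ℕ,
      (∀ S : Finset ℕ, S ⊆ Finset.Icc 1 K → m < S.card → HasAPNat (S : Set ℕ) k) →
      H502.rk k K ≤ m := by
    intro k K m h
    unfold H502.rk
    apply Finset.sup_le
    intro S hS
    rw [Finset.mem_filter, Finset.mem_powerset] at hS
    by_contra hcon
    exact hS.2 (h S hS.1 (not_le.mp hcon))
  refine ⟨?_, ?_, ?_, ?_, ?_, ?_, vc_trivial⟩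
  · intro A η h0 h1 H hns
    refine hall A (fun k hk hA => q1_general A η h0 h1 ?_ k hk hA) hns
    obtain ⟨N0, hN0⟩ := H
    refine ⟨N0, fun N hN => ?_⟩
    obtain ⟨B, hvc, hB, hAB⟩ := hN0 N hN
    refine ⟨B, hB, ?_, hvc⟩
    rw [hzero, ← hcardN]
    exact hAB
  · intro A d hvc hns
    refine hall A (fun k hk hA => ?_) hns
    obtain ⟨N0, hN0⟩ := vc_eventually d
    have hmem : ∀ n : ℕ, (n : ℤ) ∈ (fun n : ℕ => (n : ℤ)) '' A ↔ n ∈ A := by
      intro n
      constructor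
      · rintro ⟨n', hn', h⟩
        have h2 : (n' : ℤ) = (n : ℤ) := h
        have h3 : n' = n := by exact_mod_cast h2
        rw [← h3]; exact hn'
      · intro hn
        exact ⟨n, hn, rfl⟩
    refine q1_general A (1 / 2) (by norm_num) (by norm_num) ⟨max N0 3, fun N hN =>
      ⟨(fun n : ℕ => (n : ℤ)) '' A, fun n _ _ h => (hmem n).mp h, ?_, ?_⟩⟩ k hk hA
    · have hN3 : 3 ≤ N := le_trans (le_max_right _ _) hN
      have hlog : 1 ≤ Real.log N := by
        have h2 : (3 : ℝ) ≤ N := by exact_mod_cast hN3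
        rw [Real.le_log_iff_exp_le (by linarith)]
        have h1 := Real.exp_one_lt_three
        linarith
      have h1 : (1 : ℝ) ≤ Real.log N ^ ((1 : ℝ) / 2 / 4) :=
        Real.one_le_rpow hlog (by norm_num)
      refine le_trans ?_ (le_mul_of_one_le_left (by positivity) h1)
      refine Nat.cast_le.mpr ?_
      apply Finset.card_le_card_of_injOn (fun n : ℕ => (n : ℤ))
      · intro n hn
        rw [Finset.mem_coe, Finset.mem_filter, Finset.mem_Icc] at hn
        rw [Finset.mem_coe, Finset.mem_filter, Finset.mem_Icc]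
        refine ⟨⟨?_, ?_⟩, ?_⟩
        · show (0 : ℤ) + 1 ≤ (n : ℤ)
          omega
        · show (n : ℤ) ≤ 0 + N
          omega
        · exact (hmem n).mpr hn.2
      · intro a _ b _ hab
        have h1 : (a : ℤ) = (b : ℤ) := hab
        exact_mod_cast h1
    · intro S hS
      exact (hvc S hS).trans (hN0 N (le_trans (le_max_left _ _) hN))
  · intro A D K j0 hK hD hs hns
    refine hall A (fun k hk hA => q1_series A D K j0 hK ?_ hs k hk hA) hns
    intro j hj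
    obtain ⟨h1, h2, B, hvc, hB, hAB⟩ := hD j hj
    refine ⟨h1, h2, B, hB, ?_, hvc⟩
    rw [hzero, ← hcardN]
    push_cast
    exact hAB
  · intro A B hAB D j0 hD hs k K m hK hm hA
    obtain ⟨C, hC⟩ := H502.rel_sum A B hAB D j0 hD hs k K hK hA
    refine ⟨C, fun X => (hC X).trans ?_⟩
    have h1 : (H502.rk k K : ℝ) ≤ m := by exact_mod_cast hrk k K m hm
    have h2 : 0 ≤ ∑ n ∈ Finset.Icc 1 (2 * X), B.indicator (fun n : ℕ => 1 / (n : ℝ)) n :=
      Finset.sum_nonneg fun n _ => Set.indicator_nonneg (fun n _ => by positivity) n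
    gcongr
  · intro k K N d m hK hm hd hdN A B hAB hvc hA M
    rw [hcard, hcard]
    refine (H502.rel k K N d hK hd hdN A B hAB hvc hA M).trans ?_
    have h1 : (H502.rk k K : ℝ) ≤ m := by exact_mod_cast hrk k K m hm
    gcongr
  · intro k N d hk hd hdN A B hvc M hE
    refine ⟨fun T hT hA => ?_, fun hA => ?_⟩
    · rw [hcard]
      apply main2 k N d hk hd hdN T hT A B hvc hA M _ rfl
      rw [← hcard, ← hcard2]
      exact hE
    · rw [hcard]
      apply main_bound k N d hk hd hdN A B hvc hA M _ rfl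
      rw [← hcard, ← hcard2]
      exact hE

end Vale.Agent.Results.P057.LowComplexity
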